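import Vale.Agent.P022S.Two
import Vale.Agent.P022S.Rep
import Vale.Agent.P022D.Dh.Ndh
import Vale.Agent.P022D.Good.Cliff
import Vale.Agent.P022G.Sel.Auxr

/-!
# P022S: over a surface the trace does not vanish on a coset
-/

set_option linter.all false

noncomputable section

namespace Vale.Agent.P022S.Av

open NumberField IsLocalRing Vale.Agent.P022 Vale.Agent.P022.H346 Vale.Agent.P022.C
open Vale.Agent.P027M.S (Inert)
open Vale.Agent.P022D.Sel (M2 Ginf)
open Vale.Agent.P022D.Dh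

section pw
variable {G B : Type} [Group G] [CommRing B] {t : G → B}

theorem tpow (T : TF t 1) (h2 : (2 : B) = 0) (g : G) (n : ℕ) :
    ∃ w, t (g ^ n) = t g * ((n : B) + t g * w) := by
  have key : ∀ n : ℕ, (∃ w, t (g ^ n) = t g * ((n : B) + t g * w)) ∧
      ∃ w, t (g ^ (n + 1)) = t g * (((n + 1 : ℕ) : B) + t g * w) := by
    intro n
    induction n with
    | zero => exact ⟨⟨0, by rw [pow_zero, T.one, h2]; simp⟩, 0, by simp⟩
    | succ n ih =>
      obtain ⟨⟨w, e⟩, w', e'⟩ := ih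
      refine ⟨⟨w', e'⟩, ((n + 1 : ℕ) : B) + t g * w' - w, ?_⟩
      have := Two.rec2 T (g ^ n) g
      rw [← pow_succ, ← pow_succ, e, e', MonoidHom.one_apply, Units.val_one] at this
      rw [this]
      push_cast
      linear_combination (-(t g * (n + 1))) * h2
  exact (key n).1

theorem tsq (T : TF t 1) (h2 : (2 : B) = 0) (c : ℕ) (g : G) : t (g ^ 2 ^ c) = t g ^ 2 ^ c := by
  induction c with
  | zero => simp
  | succ c ih =>
    have := T.mul (g ^ 2 ^ c) (g ^ 2 ^ c)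
    rw [mul_inv_cancel, T.one, h2, mul_zero, add_zero, ih] at this
    rw [pow_succ 2 c, pow_mul, pow_mul, sq, sq, this]

theorem todd [IsLocalRing B] (T : TF t 1) (h2 : (2 : B) = 0) {g : G} (hg : t g ∈ maximalIdeal B)
    {o : ℕ} (ho : Odd o) : ∃ u, IsUnit u ∧ t (g ^ o) = t g * u := by
  obtain ⟨w, e⟩ := tpow T h2 g o
  refine ⟨_, ?_, e⟩
  obtain ⟨k, rfl⟩ := ho
  have e1 : ((2 * k + 1 : ℕ) : B) + t g * w = 1 - -(t g * w) := by
    push_cast
    linear_combination (k : B) * h2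
  rw [e1]
  exact isUnit_one_sub_self_of_mem_nonunits _
    ((maximalIdeal B).neg_mem (Ideal.mul_mem_right _ _ hg))

theorem tne [IsLocalRing B] [IsDomain B] (T : TF t 1) (h2 : (2 : B) = 0) {g : G}
    (hg : t g ∈ maximalIdeal B) (h0 : t g ≠ 0) {n : ℕ} (hn : 0 < n) : t (g ^ n) ≠ 0 := by
  obtain ⟨c, o, ho, rfl⟩ := Nat.exists_eq_two_pow_mul_odd hn.ne'
  obtain ⟨u, hu, e⟩ := todd T h2 hg ho
  rw [mul_comm, pow_mul, tsq T h2, e]
  exact pow_ne_zero _ (mul_ne_zero h0 hu.ne_zero)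

theorem tf_map {C : Type} [CommRing C] (T : TF t 1) (f : B →+* C) : TF (fun g => f (t g)) 1 :=
  ⟨by rw [T.one, map_ofNat], fun g h => by rw [T.comm], fun g h => by
    have := congrArg f (T.mul g h)
    simpa using this⟩

/-- a model over a field in which `s` is diagonal -/
theorem model [IsDomain B] [CharP B 2] (T : TF t 1) {s k : G} (hs : t s ≠ 0)
    (hk : Rep.δ t 1 s k ≠ 0) : ∃ (Ω : Type) (_ : Field Ω) (_ : CharP Ω 2) (f : B →+* Ω)
      (ρ : G →* M2 Ω), Function.Injective f ∧ (∀ g, (ρ g).trace = f (t g)) ∧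
      (∀ g, (ρ g).det = 1) ∧ ρ s 0 1 = 0 ∧ ρ s 1 0 = 0 := by
  let Ω := AlgebraicClosure (FractionRing B)
  let f : B →+* Ω := (algebraMap (FractionRing B) Ω).comp (algebraMap B _)
  have hf : Function.Injective f :=
    (algebraMap (FractionRing B) Ω).injective.comp (IsFractionRing.injective B _)
  haveI : CharP Ω 2 := charP_of_injective_ringHom hf 2
  have h2 : (2 : Ω) = 0 := CharTwo.two_eq_zero
  obtain ⟨α, β, e1, e2⟩ := _root_.P022G.Sel.Auxr.eig (f (t s)) (1 : Ω)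
  have ne : α - β ≠ 0 := fun e => hs (hf (by rw [map_zero, e1]; linear_combination e + β * h2))
  let a : Ω := (f (t (s * k)) - β * f (t k)) / (α - β)
  have ea : (α - β) * a = f (t (s * k)) - β * f (t k) := mul_div_cancel₀ _ ne
  obtain ⟨ρ, r1, r2, r3, -⟩ := Rep.rep (tf_map T f) s k !![α, 0; 0, β]
    !![a, 1; a * (f (t k) - a) - 1, f (t k) - a] (by simp [Matrix.trace_fin_two, e1])
    (by simp [Matrix.det_fin_two, ← e2]) (by simp [Matrix.trace_fin_two])
    (by simp [Matrix.det_fin_two]) (by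
      simp [Matrix.trace_fin_two, Matrix.mul_apply, Fin.sum_univ_two]
      linear_combination ea) (by
      refine IsUnit.mk0 _ fun e => hk (hf ?_)
      rw [map_zero, ← e]
      simp [Rep.δ, _root_.P022G.Th.dl, map_ofNat])
  exact ⟨Ω, inferInstance, inferInstance, f, ρ, hf, r1, fun g => by simpa using r2 g,
    by rw [r3]; rfl, by rw [r3]; rfl⟩

/-- the step of Clifford -/
theorem clf {Ω : Type} [Field Ω] (ρ : G →* M2 Ω) (det : ∀ g, (ρ g).det = 1) (N : Subgroup G)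
    (hN : N.Normal) {h σ : G} (hh : h ∈ N) (h01 : ρ h 0 1 = 0) (h10 : ρ h 1 0 = 0)
    (ne : ρ h 0 0 - ρ h 1 1 ≠ 0) (hz : ∀ u ∈ N, (ρ (σ * u)).trace = 0) :
    (ρ σ 0 0 = 0 ∧ ρ σ 1 1 = 0) ∧
      ∀ g, (ρ g 0 1 = 0 ∧ ρ g 1 0 = 0) ∨ (ρ g 0 0 = 0 ∧ ρ g 1 1 = 0) := by
  have dt : ∀ g, ρ g 0 0 * ρ g 1 1 - ρ g 0 1 * ρ g 1 0 = 1 := fun g => by
    rw [← Matrix.det_fin_two, det]
  have a1 := hz 1 N.one_mem
  have a2 := hz h hh
  simp only [mul_one, map_mul, Matrix.trace_fin_two, Matrix.mul_apply, Fin.sum_univ_two, h01, h10,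
    mul_zero, add_zero, zero_add] at a1 a2
  have s0 : ρ σ 0 0 = 0 := (mul_eq_zero.1 (show (ρ h 0 0 - ρ h 1 1) * ρ σ 0 0 = 0 by
    linear_combination a2 - ρ h 1 1 * a1)).resolve_left ne
  have s1 : ρ σ 1 1 = 0 := by linear_combination a1 - s0
  have s2 := dt σ
  rw [s0, zero_mul] at s2
  have n1 : ρ σ 0 1 ≠ 0 := fun e => by rw [e] at s2; simp at s2
  have n2 : ρ σ 1 0 ≠ 0 := fun e => by rw [e] at s2; simp at s2
  have dg : ∀ u ∈ N, ρ u 0 1 = 0 ∧ ρ u 1 0 = 0 := fun u hu => by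
    have b1 := hz u hu
    have b2 := hz _ (N.mul_mem hu hh)
    simp only [map_mul, Matrix.trace_fin_two, Matrix.mul_apply, Fin.sum_univ_two, h01, h10, s0, s1,
      mul_zero, add_zero, zero_add, zero_mul] at b1 b2
    have c1 : ρ u 1 0 = 0 := (mul_eq_zero.1 ((mul_eq_zero.1
      (show (ρ h 0 0 - ρ h 1 1) * (ρ σ 0 1 * ρ u 1 0) = 0 by
        linear_combination b2 - ρ h 1 1 * b1)).resolve_left ne)).resolve_left n1
    rw [c1, mul_zero, zero_add] at b1
    exact ⟨(mul_eq_zero.1 b1).resolve_left n2, c1⟩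
  refine ⟨⟨s0, s1⟩, fun g => ?_⟩
  obtain ⟨d1, d2⟩ := dg _ (hN.conj_mem h hh g)
  have e : ρ (g * h * g⁻¹) * ρ g = ρ g * ρ h := by
    rw [← map_mul, ← map_mul, inv_mul_cancel_right]
  have e00 := congrFun (congrFun e 0) 0
  have e01 := congrFun (congrFun e 0) 1
  have e10 := congrFun (congrFun e 1) 0
  have e11 := congrFun (congrFun e 1) 1
  simp only [Matrix.mul_apply, Fin.sum_univ_two, h01, h10, d1, d2, mul_zero, add_zero, zero_add,
    zero_mul] at e00 e01 e10 e11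
  have p0 : ρ g 0 0 * ρ g 0 1 = 0 := (mul_eq_zero.1
    (show (ρ h 0 0 - ρ h 1 1) * (ρ g 0 0 * ρ g 0 1) = 0 by
      linear_combination ρ g 0 0 * e01 - ρ g 0 1 * e00)).resolve_left ne
  have p1 : ρ g 1 0 * ρ g 1 1 = 0 := (mul_eq_zero.1
    (show (ρ h 0 0 - ρ h 1 1) * (ρ g 1 0 * ρ g 1 1) = 0 by
      linear_combination ρ g 1 0 * e11 - ρ g 1 1 * e10)).resolve_left ne
  have d := dt g
  rcases mul_eq_zero.1 p0 with x | x <;> rcases mul_eq_zero.1 p1 with y | y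
  · rw [x, y] at d; simp at d
  · exact Or.inr ⟨x, y⟩
  · exact Or.inl ⟨x, y⟩
  · rw [x, y] at d; simp at d

end pw

variable {B : Type} [CommRing B] [IsLocalRing B] {t : GQ → B} {T : Finset ℕ}

/-- a residually trivial trace function which generates the ring -/
structure Sf (t : GQ → B) (T : Finset ℕ) : Prop where
  tf : TF t 1
  mem : ∀ g, t g ∈ maximalIdeal B
  opn : ∀ k : ℕ, ∃ U : Subgroup GQ, IsOpen (U : Set GQ) ∧
    ∀ u ∈ U, ∀ g, t (g * u) - t g ∈ maximalIdeal B ^ k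
  unr : ∀ l : ℕ, l.Prime → l ∉ T → ∀ P : Ideal (𝓞 Qb), P.IsPrime → (l : 𝓞 Qb) ∈ P →
    ∀ s, Inert P s → ∀ g, t (g * s) = t g
  gen : maximalIdeal B ≤ Ideal.span (Set.range t) ⊔ maximalIdeal B ^ 2

variable [IsNoetherianRing B] [IsAdicComplete (maximalIdeal B) B] [IsDomain B] [CharP B 2]

theorem frobj (c j : ℕ) :
    ∃ k, ∀ x : B, x ^ 2 ^ c ∈ maximalIdeal B ^ k → x ∈ maximalIdeal B ^ j := by
  haveI : Fact (Nat.Prime 2) := ⟨Nat.prime_two⟩
  obtain ⟨k, hk⟩ := Alg.chev (fun k => (maximalIdeal B ^ k).comap (iterateFrobenius B 2 c))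
    (fun a b h => Ideal.comap_mono (Ideal.pow_le_pow_right h)) (fun x hx => by
      have h1 : x ^ 2 ^ c ∈ ⨅ k : ℕ, maximalIdeal B ^ k := Submodule.mem_iInf _ |>.2 hx
      rw [Ideal.iInf_pow_eq_bot_of_isLocalRing _ (maximalIdeal.isMaximal B).ne_top] at h1
      exact pow_eq_zero_iff (pow_ne_zero c two_ne_zero) |>.1 h1) j
  exact ⟨k, fun x hx => hk hx⟩

/-- the dihedral locus has dimension at most one -/
theorem ndh (S : Sf t T) (H : Subgroup GQ) (ho : IsOpen (H : Set GQ)) (hi : H.index = 2)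
    {s : GQ} (hs : s ∉ H) (off : ∀ g ∉ H, t g = 0)
    (cm : ∀ a ∈ H, ∀ b ∈ H, ∀ g, t (g * ((a * b)⁻¹ * (b * a))) = t g)
    (an : ∀ c ∉ H, ∀ a ∈ H, ∀ g, t (g * (c⁻¹ * (a * c) * a)) = t g)
    (fr : ∀ a ∈ H, ∀ b ∈ H, (t a + t b + t (a * b)) ^ 2 = t a * t b * t (a * b)) :
    ringKrullDim B ≤ 1 := by
  classical
  have h2 : (2 : B) = 0 := CharTwo.two_eq_zero
  obtain ⟨K, _, _, j, hK, rfl, hτ⟩ := Nd.quad H ho hi
  obtain ⟨C, hC, hanti⟩ := anti hK j ⟨s, hs, hτ s⟩ (M := ∏ p ∈ T.filter Odd, p)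
    (Finset.prod_induction _ Odd (fun _ _ => Odd.mul) odd_one
      fun p hp => (Finset.mem_filter.1 hp).2)
  obtain ⟨c, o, hodd, e⟩ := Nat.exists_eq_two_pow_mul_odd hC.ne'
  obtain ⟨k1, hk1⟩ := frobj (B := B) 1 2
  obtain ⟨k, hk⟩ := frobj (B := B) c (k1 + 2)
  let mk := Ideal.Quotient.mk (maximalIdeal B ^ k)
  let V : Subgroup GQ := Two.Ker (fun g => mk (t g)) 1
  have mV : ∀ x, x ∈ V ↔ ∀ g, t (g * x) - t g ∈ maximalIdeal B ^ k := fun x =>
    ⟨fun h g => Ideal.Quotient.eq.1 (h.1 g), fun h => ⟨fun g => Ideal.Quotient.eq.2 (h g), rfl⟩⟩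
  have eV : ∀ x, (∀ g, t (g * x) = t g) → x ∈ V := fun x h => (mV x).2 fun g => by
    rw [h, sub_self]; exact zero_mem _
  haveI nV : V.Normal := Two.normal (tf_map S.tf mk)
  have oV : IsOpen (V : Set GQ) := by
    obtain ⟨U, hU, h⟩ := S.opn k
    exact Subgroup.isOpen_mono (H₁ := U) (fun u hu => (mV u).2 (h u hu)) hU
  have a1 : IsAlgClosure ℚ Qb := AlgebraicClosure.instIsAlgClosure ℚ
  have a3 : IsGalois ℚ Qb := IsAlgClosure.isGalois ℚ Qb
  haveI : Finite (GQ ⧸ V) := Subgroup.quotient_finite_of_isOpen V oV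
  haveI : V.FiniteIndex := Subgroup.finiteIndex_of_finite_quotient
  let Q := GK j ⧸ V.subgroupOf (GK j)
  letI : CommGroup Q := { (inferInstance : Group Q) with
    mul_comm := fun x y => by
      obtain ⟨x, rfl⟩ := QuotientGroup.mk_surjective x
      obtain ⟨y, rfl⟩ := QuotientGroup.mk_surjective y
      exact QuotientGroup.eq.2 (eV _ (cm x x.2 y y.2)) }
  let Φ : GK j →* Multiplicative (Additive Q) :=
    (MulEquiv.multiplicativeAdditive Q).symm.toMonoidHom.comp (QuotientGroup.mk' _)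
  have k1' : ∀ g, Φ g = 1 ↔ (g : GQ) ∈ V := fun g => QuotientGroup.eq_one_iff g
  have t2 : ∀ g, Φ g ^ 2 ^ (k + 1) = 1 := fun g => by
    rw [← map_pow, k1', mV]
    intro x
    exact Ideal.pow_le_pow_right (Nat.le_succ k) (Two.tr S.tf (maximalIdeal B)
      (h2 ▸ zero_mem _) (S.mem g) (by simp) k x)
  have t3 : ∀ x : Additive Q, 2 ^ (k + 1) • x = 0 := fun x => by
    obtain ⟨g, hg⟩ := QuotientGroup.mk_surjective (Additive.toMul x)
    rw [show x = (Φ g).toAdd from (congrArg Additive.ofMul hg).symm, ← toAdd_pow, t2]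
    rfl
  obtain ⟨w, hw⟩ := hanti (Additive Q) Φ (fun x => ⟨k + 1, t3 x⟩)
    (Subgroup.isOpen_mono (H₁ := V.subgroupOf (GK j)) (fun g hg => (k1' g).2 hg)
      (oV.preimage continuous_subtype_val))
    (fun p hp hd P hP hpP g hg => (k1' g).2 (eV _ (S.unr p hp (fun hT => hd (by
      rcases hp.eq_two_or_odd' with rfl | h3
      · exact dvd_mul_right _ _
      · exact (Finset.dvd_prod_of_mem (fun p => p) (Finset.mem_filter.2 ⟨hT, h3⟩)).mul_left 2))
      P hP hpP g hg)))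
    (fun s hs g g' e => by
      rw [eq_inv_iff_mul_eq_one, ← map_mul, k1', Subgroup.coe_mul, e]
      exact eV _ (an s hs g g.2))
  have one : ∀ (g g' : GK j) (n : ℕ), C • (Φ g).toAdd = n • C • (Φ g').toAdd →
      t g + t (g' ^ n) ∈ maximalIdeal B ^ 2 := by
    intro g g' n h
    have h3 : Φ ((g * (g' ^ n)⁻¹) ^ C) = 1 := by
      rw [map_pow, map_mul, map_inv, map_pow, mul_pow, inv_pow, mul_inv_eq_one]
      apply Multiplicative.toAdd.injective
      rw [toAdd_pow, toAdd_pow, toAdd_pow, h, smul_comm]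
    have h4 := (mV _).1 ((k1' _).1 h3) 1
    rw [one_mul, S.tf.one, h2, sub_zero, Subgroup.coe_pow, e, mul_comm (2 ^ c), pow_mul,
      tsq S.tf h2] at h4
    obtain ⟨u, hu, eu⟩ := todd S.tf h2 (S.mem ((g * (g' ^ n)⁻¹ : GK j) : GQ)) hodd
    have h5 := hk _ h4
    rw [eu, Ideal.mul_unit_mem_iff_mem _ hu] at h5
    have h6 := fr g g.2 _ ((g' ^ n)⁻¹ : GK j).2
    have h7 := S.tf.inv ((g' : GQ) ^ n)
    rw [MonoidHom.one_apply, Units.val_one, one_mul] at h7
    rw [Subgroup.coe_mul] at h5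
    have h8 := hk1 _ (by
      rw [pow_one, h6]
      exact Ideal.mul_mem_left _ _ (Ideal.pow_le_pow_right (Nat.le_add_right _ _) h5))
    have h9 := Ideal.sub_mem _ h8 (Ideal.pow_le_pow_right (Nat.le_add_left _ _) h5)
    rwa [add_sub_cancel_right, Subgroup.coe_inv, Subgroup.coe_pow, h7] at h9
  have fin : ∀ a ∈ maximalIdeal B, (∀ g : GK j, t g ∈ Ideal.span {a} ⊔ maximalIdeal B ^ 2) →
      ringKrullDim B ≤ 1 := fun a ha h => Alg.dim_le ha (S.gen.trans (sup_le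
    (Ideal.span_le.2 (by
      rintro _ ⟨g, rfl⟩
      by_cases hg : g ∈ GK j
      · exact h ⟨g, hg⟩
      · rw [off g hg]; exact zero_mem _)) le_sup_right))
  by_cases h0 : ∀ g : GK j, t g ∈ maximalIdeal B ^ 2
  · exact fin 0 (zero_mem _) fun g => Ideal.mem_sup_right (h0 g)
  push Not at h0
  obtain ⟨g1, hg1⟩ := h0
  refine fin _ (S.mem g1) fun g => ?_
  obtain ⟨a, h⟩ := hw g
  obtain ⟨a', h'⟩ := hw g1
  rcases Cy.cmp (t3 w) a a' with ⟨n, hn⟩ | ⟨n, hn⟩
  · have b1 := one g g1 n (by rw [h, h', hn])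
    obtain ⟨v, ev⟩ := tpow S.tf h2 (g1 : GQ) n
    have := Ideal.sub_mem _ (Ideal.mem_sup_right (S := Ideal.span {t g1}) b1)
      (Ideal.mem_sup_left (ev ▸ Ideal.mul_mem_right _ _ (Ideal.mem_span_singleton_self _)))
    rwa [add_sub_cancel_right] at this
  · have b1 := one g1 g n (by rw [h, h', hn])
    obtain ⟨v, ev⟩ := tpow S.tf h2 (g : GQ) n
    rw [ev] at b1
    by_cases hu : IsUnit ((n : B) + t g * v)
    · rw [← Ideal.mul_unit_mem_iff_mem _ hu]
      have := Ideal.sub_mem _ (Ideal.mem_sup_right (S := Ideal.span {t g1}) b1)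
        (Ideal.mem_sup_left (Ideal.mem_span_singleton_self _))
      rwa [add_sub_cancel_left] at this
    · refine absurd ?_ hg1
      have := Ideal.sub_mem _ b1 (show _ ∈ maximalIdeal B ^ 2 by
        rw [sq]; exact Ideal.mul_mem_mul (S.mem g) hu)
      rwa [add_sub_cancel_right] at this

/-- **the trace does not vanish on a coset** -/
theorem co (S : Sf t T) (hd : ¬ ringKrullDim B ≤ 1) {s k : GQ} (hs : s ∈ Ginf) (h0 : t s ≠ 0)
    (hk : Rep.δ t 1 s k ≠ 0) (U : Subgroup GQ) (hU : IsOpen (U : Set GQ)) (hn : U.Normal)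
    (σ : GQ) : ∃ u ∈ U, u ∈ Ginf ∧ t (σ * u) ≠ 0 := by
  by_contra hc
  push Not at hc
  have h2 : (2 : B) = 0 := CharTwo.two_eq_zero
  obtain ⟨Ω, _, _, f, ρ, hf, tr, det, s1, s2⟩ := model S.tf h0 hk
  have w2 : (2 : Ω) = 0 := CharTwo.two_eq_zero
  obtain ⟨n, n0, hn'⟩ := P022D.Good.pow_mem_open hU hn s
  have hne := tne S.tf h2 (S.mem s) h0 n0
  have dg : ∀ n : ℕ, ρ (s ^ n) 0 1 = 0 ∧ ρ (s ^ n) 1 0 = 0 := fun n => by
    induction n with
    | zero => simp
    | succ n ih => simp [pow_succ, -map_pow, Matrix.mul_apply, Fin.sum_univ_two, ih.1, ih.2, s1, s2]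
  haveI := P022D.Good.ginf_normal
  obtain ⟨c1, c2⟩ := clf ρ det (U ⊓ Ginf) inferInstance (h := s ^ n) (σ := σ)
    ⟨hn', Ginf.pow_mem hs n⟩ (dg n).1 (dg n).2 (fun e => hne (hf (by
      rw [map_zero, ← tr, Matrix.trace_fin_two]
      linear_combination e + ρ (s ^ n) 1 1 * w2)))
    (fun u hu => by rw [tr, hc u hu.1 hu.2, map_zero])
  have dt : ∀ g, ρ g 0 0 * ρ g 1 1 - ρ g 0 1 * ρ g 1 0 = 1 := fun g => by
    rw [← Matrix.det_fin_two, det]
  have ml : ∀ a b i j, ρ (a * b) i j = ρ a i 0 * ρ b 0 j + ρ a i 1 * ρ b 1 j := fun a b i j => by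
    rw [map_mul, Matrix.mul_apply, Fin.sum_univ_two]
  let H : Subgroup GQ :=
    { carrier := {g | ρ g 0 1 = 0 ∧ ρ g 1 0 = 0}
      one_mem' := by simp
      mul_mem' := fun {a b} ha hb => by simp [ml, -map_mul, ha.1, ha.2, hb.1, hb.2]
      inv_mem' := fun {a} ha => (c2 a⁻¹).resolve_right fun h => by
        have := ml a a⁻¹ 0 0
        rw [mul_inv_cancel, map_one, h.1, ha.1] at this
        simp at this }
  have out : ∀ g ∉ H, ρ g 0 0 = 0 ∧ ρ g 1 1 = 0 := fun g hg => (c2 g).resolve_left hg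
  have sH : σ ∉ H := fun h => by
    have := dt σ
    rw [c1.1, h.1] at this
    simp at this
  have off : ∀ g ∉ H, t g = 0 := fun g hg => hf (by
    rw [map_zero, ← tr, Matrix.trace_fin_two, (out g hg).1, (out g hg).2, add_zero])
  have ker : ∀ x, ρ x = 1 → ∀ g, t (g * x) = t g := fun x hx g => hf (by
    rw [← tr, ← tr, map_mul, hx, mul_one])
  have can : ∀ x y, ρ x = ρ y → ρ (x⁻¹ * y) = 1 := fun x y e => by
    rw [map_mul, ← e, ← map_mul, inv_mul_cancel, map_one]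
  refine hd (ndh S H ?_ ?_ sH off (fun a ha b hb => ker _ (can _ _ ?_)) (fun c hc a ha => ker _ ?_)
    fun a ha b hb => hf ?_)
  · obtain ⟨k, hk⟩ : ∃ k : ℕ, t (s ^ n) ∉ maximalIdeal B ^ k := by
      by_contra hx
      push Not at hx
      have h1 : t (s ^ n) ∈ ⨅ k : ℕ, maximalIdeal B ^ k := Submodule.mem_iInf _ |>.2 hx
      rw [Ideal.iInf_pow_eq_bot_of_isLocalRing _ (maximalIdeal.isMaximal B).ne_top] at h1
      exact hne h1
    obtain ⟨V, hV, h⟩ := S.opn k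
    refine Subgroup.isOpen_mono (H₁ := V) (fun v hv => ?_) hV
    by_contra hx
    have := h v hv (s ^ n)
    rw [off _ (fun e => hx ((H.mul_mem_cancel_left (show s ^ n ∈ H from dg n)).1 e)), zero_sub,
      neg_mem_iff] at this
    exact hk this
  · rw [Subgroup.index_eq_two_iff]
    refine ⟨σ, fun b => ?_⟩
    by_cases hb : b ∈ H
    · exact Or.inr ⟨hb, fun e => sH ((H.mul_mem_cancel_left hb).1 e)⟩
    · exact Or.inl ⟨⟨by simp [ml, -map_mul, (out b hb).1, c1.2],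
        by simp [ml, -map_mul, (out b hb).2, c1.1]⟩, hb⟩
  · ext i j
    fin_cases i <;> fin_cases j <;> simp [ml, -map_mul, ha.1, ha.2, hb.1, hb.2, mul_comm]
  · rw [mul_assoc]
    refine can _ _ ?_
    have d := dt a
    rw [ha.1, zero_mul, sub_zero] at d
    ext i j
    fin_cases i <;> fin_cases j <;>
      simp [ml, -map_mul, ha.1, ha.2, (out c hc).1, (out c hc).2]
    · linear_combination (-ρ c 0 1) * d
    · linear_combination (-ρ c 1 0) * d
  · have da := dt a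
    have db := dt b
    rw [ha.1, zero_mul, sub_zero] at da
    rw [hb.1, zero_mul, sub_zero] at db
    simp only [map_pow, map_add, map_mul f, ← tr, Matrix.trace_fin_two, ml, ha.1, ha.2, hb.1, hb.2,
      mul_zero, zero_mul, add_zero, zero_add, CharTwo.add_sq]
    linear_combination (-(ρ a 0 0 * ρ a 1 1 * ρ b 0 0 * ρ b 1 1)) * w2 -
      (ρ a 0 0 ^ 2 + ρ a 1 1 ^ 2) * db - (ρ b 0 0 ^ 2 + ρ b 1 1 ^ 2) * da

end Vale.Agent.P022S.Av
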