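import Vale.Agent.P022S.Exq
import Vale.Agent.P022S.Sel.AllH89
import Vale.Agent.P022G.Rw.PcB
import Vale.Agent.P022E.GW.TauG

/-!
# P022S: the auxiliary primes at a curve and the limit of the relations
-/

set_option linter.all false

noncomputable section

namespace Vale.Agent.P022S.Av

open NumberField IsLocalRing MvPowerSeries Filter
open Vale.Agent.P022
open Vale.Agent.P027M.S (Inert)
open Vale.Agent.P022D.Core (PS Coef)
open Vale.Agent.P022E.GW (Ov Gn)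
open _root_.P022G.Sel (tI rd TanS)
open _root_.P022S.Sel (Nice0)

variable {V : Type} [CommRing V] [IsDomain V] [IsDiscreteValuationRing V]
  [Finite (ResidueField V)] {t : V}

/-- **the primes**: the bound of the tangent space and the avoidance of the surfaces -/
theorem prim [CharP V 2] {ρ : GQ →* GL (Fin 2) V} {T : Finset ℕ} {D : ℕ → Set GQ}
    (ht : Irreducible t) (hN : Nice0 t ρ T D) {A : Type} [CommRing A] [IsLocalRing A]
    [IsNoetherianRing A] [IsAdicComplete (maximalIdeal A) A] [Finite (ResidueField A)]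
    {tu : GQ → A} (h2 : 2 ∈ T) (s : Finset (Ideal A)) (hs : ∀ E ∈ s, Clf.Sf tu T E) :
    ∃ N r c : ℕ, ∀ (n₀ : ℕ) (B : Finset ℕ), ∃ (q : ℕ → Fin r → ℕ) (τ' : ℕ → Fin r → GQ), ∀ n,
      Function.Injective (q n) ∧
      (∀ i, (q n i).Prime ∧ q n i ∉ B ∪ T ∧ 2 ^ (n + n₀) ∣ q n i - 1 ∧
        (∃ z : ZMod (q n i), z ^ 2 ^ (n + n₀) = 2) ∧
        ∀ φ, IsFrob (q n i) φ → ∀ E ∈ s, tu φ ∉ E ⊔ maximalIdeal A ^ c) ∧
      (∀ i, q n i ∉ T ∧ ∃ P, Ov (q n i) P ∧ Gn (q n i) P (τ' n i)) ∧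
      (TanS (rd (tI t N) ρ) T (Finset.univ.image (q n)) D).Finite ∧
      Nat.card (TanS (rd (tI t N) ρ) T (Finset.univ.image (q n)) D) <
        Nat.card (V ⧸ tI t N) ^ (2 * r + 6) := by
  obtain ⟨T₁, N, r, σ, U, -, u1, u2, u3, u4⟩ :=
    _root_.P022S.Sel.H89.sel2 ht (P022G.Tw.fin_tI ht 1) hN
  obtain ⟨c, hc⟩ := Exq.exq h2 s hs u1 u2 σ u3 T₁
  refine ⟨N, r, c, fun n₀ B => ?_⟩
  choose q q1 q2 using fun n => hc (n + n₀) B
  have hg : ∀ n i, ∃ g, q n i ∉ T ∧ ∃ P, Ov (q n i) P ∧ Gn (q n i) P g := fun n i => by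
    obtain ⟨a1, -, φ, m, ⟨P, b1, b2, -⟩, -⟩ := (q2 n i).2
    obtain ⟨g, h⟩ := P022E.GW.Tg.ex_gn' (q := q n i) (P := P) ⟨a1, b1, b2⟩
    exact ⟨g, fun k => (q2 n i).1.2.1 (Finset.mem_union_right _ k), P, ⟨a1, b1, b2⟩, h⟩
  choose τ' hτ using hg
  exact ⟨q, τ', fun n => ⟨q1 n, fun i => (q2 n i).1, hτ n, u4 (q n) (q1 n) fun i => (q2 n i).2⟩⟩

/-- **the limit of the relations** has a minor which does not vanish at the curve -/
theorem limJ {O κ R : Type} [CommRing O] [IsDomain O] [IsDiscreteValuationRing O] [Coef O]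
    [Fintype κ] [Fintype R] (ht : Irreducible t) (θ : PS O (κ ⊕ R) →+* V)
    (K : ℕ → Ideal (PS O (κ ⊕ R))) (N e s : ℕ) (hs : s + e = Fintype.card R)
    (h : ∀ n, Nat.card {v : R → V ⧸ tI t N // ∀ f : K n, ∑ z, Ideal.Quotient.mk (tI t N)
      (θ (pderiv O (Sum.inr z) f.1)) * v z = 0} < Nat.card (V ⧸ tI t N) ^ (e + 1))
    (W : Ultrafilter ℕ) :
    ∃ (kn : ℕ → Fin s → PS O (κ ⊕ R)) (k : Fin s → PS O (κ ⊕ R)) (col : Fin s → κ ⊕ R),
      (∀ n a, kn n a ∈ K n) ∧ (∀ a, P022D.PA.Cv (W : Filter ℕ) (fun n => kn n a) (k a)) ∧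
      (∀ a, col a ∉ Set.range Sum.inl) ∧ θ (P022G.Rel.mn k col) ≠ 0 := by
  classical
  have hj : ∀ n, ∃ (k : Fin s → K n) (cl : Fin s → R),
      (Matrix.of fun a b => θ (pderiv O (Sum.inr (cl b)) (k a).1)).det ∣ (t ^ N) ^ s := fun n => by
    have := P022G.Tw.fin_tI ht N
    obtain ⟨k, cl, -, h5⟩ := _root_.P022G.Jac.jac (t ^ N) s
      (fun (f : K n) (z : R) => θ (pderiv O (Sum.inr z) f.1)) (by omega) (by
        rw [show Fintype.card R - s + 1 = e + 1 by omega]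
        exact h n)
    exact ⟨k, cl, h5⟩
  choose kn cl hkn using hj
  obtain ⟨col, hcol⟩ := Ultrafilter.eq_pure_of_finite (W.map cl)
  have hcol' : ∀ᶠ n in (W : Filter ℕ), cl n = col := by
    have : {col} ∈ W.map cl := by rw [hcol]; exact Ultrafilter.mem_pure.2 rfl
    exact this
  have b0 := P022D.As.base O (κ ⊕ R)
  choose k hk using fun a => P022D.PA.lim (PS O (κ ⊕ R)) W fun n => (kn n a).1
  refine ⟨fun n a => (kn n a).1, k, fun a => Sum.inr (col a), fun n a => (kn n a).2, hk, ?_, ?_⟩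
  · rintro a ⟨x, hx⟩
    cases hx
  · refine P022G.PcB.mn_ne ht θ (W : Filter ℕ) (fun n a => (kn n a).1) k _ hk (N * s)
      (hcol'.mono fun n hn => ?_)
    rw [pow_mul, ← hn]
    exact hkn n

/-- the arithmetic of the two bounds -/
theorem cnt {a b c r : ℕ} (h1 : a * c ^ 4 ≤ b) (h2 : b < c ^ (2 * r + 6)) :
    a < c ^ (2 * r + 1 + 1) := by
  refine Nat.lt_of_mul_lt_mul_right (a := c ^ 4) (h1.trans_lt (h2.trans_eq ?_))
  ring

end Vale.Agent.P022S.Av
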